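import Vale.Agent.P219.GenK.Four.Hyper
import Vale.Agent.P219.Relax.Five.Damp
import Vale.Agent.P219.Eight.Weight
import Vale.Agent.P219.Relax.LineOf
import Mathlib.Analysis.Calculus.FDeriv.Partial

/-!
# P219: the regularised weight of a profile in the distance and the cosine

`u (r, c) / r` on the ray, times `(r ^ 2 / (r ^ 2 + δ ^ 2)) ^ 6`, plus a small constant. The profile
may blow up at the origin no faster than the inverse cube. The factor increases, so it only helps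
the kernel; the constant costs a small absolute amount.
-/

noncomputable section

open Set Filter Topology

namespace Vale.Agent.P219.CH.Relax.Profile2D

open Eight (rho2 rho2_pos rho2_of_gt contDiff_rho2)
open GenK.Four (sfac_one tanh_pos)
open Five (sqrt_two_half one_sub_sq_nonneg)

/-- A profile with its two partial derivatives. -/
structure Smooth (u ur uc : ℝ → ℝ → ℝ) : Prop where
  deriv_r : ∀ r, 0 < r → ∀ c, HasDerivAt (fun x => u x c) (ur r c) r
  deriv_c : ∀ r, 0 < r → ∀ c, HasDerivAt (u r) (uc r c) c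
  cont_r : ContinuousOn (Function.uncurry ur) (Ioi 0 ×ˢ univ)
  cont_c : ContinuousOn (Function.uncurry uc) (Ioi 0 ×ˢ univ)
  growth : ∃ B, ∀ r ∈ Ioc (0 : ℝ) 1, ∀ c,
    |u r c| ≤ B * (1 + |c|) / r ^ 3 ∧ |ur r c| ≤ B * (1 + |c|) / r ^ 3 ∧
      |uc r c| ≤ B * (1 + |c|) / r ^ 3

variable {u ur uc : ℝ → ℝ → ℝ}

lemma Smooth.hasFDerivAt (h : Smooth u ur uc) {r : ℝ} (hr : 0 < r) (c : ℝ) :
    HasFDerivAt (Function.uncurry u) (ur r c • ContinuousLinearMap.fst ℝ ℝ ℝ +
      uc r c • ContinuousLinearMap.snd ℝ ℝ ℝ) (r, c) := by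
  have hmem : Ioi (0 : ℝ) ×ˢ (univ : Set ℝ) ∈ 𝓝 (r, c) :=
    (isOpen_Ioi.prod isOpen_univ).mem_nhds ⟨hr, trivial⟩
  have hd := hasStrictFDerivAt_uncurry_coprod (𝕜 := ℝ) (u := (r, c)) (f := u)
    (f₁ := fun x y => ur x y • ContinuousLinearMap.id ℝ ℝ)
    (f₂ := fun x y => uc x y • ContinuousLinearMap.id ℝ ℝ) ?_ ?_ ?_ ?_
  · refine hd.hasFDerivAt.congr_fderiv ?_
    ext <;> simp [Function.HasUncurry.uncurry]
  · filter_upwards [hmem] with v hv
    refine (h.deriv_r v.1 hv.1 v.2).hasFDerivAt.congr_fderiv ?_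
    ext; simp [Function.HasUncurry.uncurry]
  · filter_upwards [hmem] with v hv
    refine (h.deriv_c v.1 hv.1 v.2).hasFDerivAt.congr_fderiv ?_
    ext; simp [Function.HasUncurry.uncurry]
  · exact (h.cont_r.continuousAt hmem).smul continuousAt_const
  · exact (h.cont_c.continuousAt hmem).smul continuousAt_const

/-- The length belonging to a half squared length. -/
def len (z : ℝ × ℝ) : ℝ := Real.sqrt (2 * z.1)

/-- The profile times a high power of the length. -/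
def core (u : ℝ → ℝ → ℝ) (z : ℝ × ℝ) : ℝ := len z ^ 11 * u (len z) (z.2 / len z)

/-- Its derivative in the half squared length. -/
def coreA (u ur uc : ℝ → ℝ → ℝ) (z : ℝ × ℝ) : ℝ :=
  11 * len z ^ 9 * u (len z) (z.2 / len z) + len z ^ 10 * ur (len z) (z.2 / len z) -
    z.2 * len z ^ 8 * uc (len z) (z.2 / len z)

/-- Its derivative in the scaled component. -/
def coreB (uc : ℝ → ℝ → ℝ) (z : ℝ × ℝ) : ℝ := len z ^ 10 * uc (len z) (z.2 / len z)

lemma continuous_len : Continuous len :=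
  Real.continuous_sqrt.comp (continuous_const.mul continuous_fst)

lemma len_pos {z : ℝ × ℝ} (hz : 0 < z.1) : 0 < len z := Real.sqrt_pos.2 (by linarith)

lemma len_eq_zero {z : ℝ × ℝ} (hz : z.1 ≤ 0) : len z = 0 :=
  Real.sqrt_eq_zero_of_nonpos (by linarith)

lemma Smooth.continuousAt_comp (h : Smooth u ur uc) {f : ℝ → ℝ → ℝ}
    (hf : f = u ∨ f = ur ∨ f = uc) {z : ℝ × ℝ} (hz : 0 < z.1) :
    ContinuousAt (fun z => f (len z) (z.2 / len z)) z := by
  have hr := len_pos hz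
  have hmem : Ioi (0 : ℝ) ×ˢ (univ : Set ℝ) ∈ 𝓝 (len z, z.2 / len z) :=
    (isOpen_Ioi.prod isOpen_univ).mem_nhds ⟨hr, trivial⟩
  have hin : ContinuousAt (fun z : ℝ × ℝ => (len z, z.2 / len z)) z :=
    continuous_len.continuousAt.prodMk
      (continuous_snd.continuousAt.div continuous_len.continuousAt hr.ne')
  rcases hf with rfl | rfl | rfl
  · exact ContinuousAt.comp (g := Function.uncurry f) (f := fun z : ℝ × ℝ => (len z, z.2 / len z))
      (h.hasFDerivAt hr _).continuousAt hin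
  · exact ContinuousAt.comp (g := Function.uncurry f) (f := fun z : ℝ × ℝ => (len z, z.2 / len z))
      (h.cont_r.continuousAt hmem) hin
  · exact ContinuousAt.comp (g := Function.uncurry f) (f := fun z : ℝ × ℝ => (len z, z.2 / len z))
      (h.cont_c.continuousAt hmem) hin

/-- Near the wall the core and its derivatives are small. -/
lemma Smooth.bounds (h : Smooth u ur uc) : ∃ B, 0 ≤ B ∧ ∀ z : ℝ × ℝ, len z ≤ 1 →
    |core u z| ≤ B * (1 + |z.2|) ^ 2 * len z ^ 4 ∧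
      |coreA u ur uc z| ≤ B * (1 + |z.2|) ^ 2 * len z ∧
      |coreB uc z| ≤ B * (1 + |z.2|) ^ 2 * len z := by
  obtain ⟨B₀, hB₀⟩ := h.growth
  refine ⟨13 * max B₀ 0, by positivity, fun z hz => ?_⟩
  obtain ⟨B, hB⟩ : ∃ B, B = max B₀ 0 := ⟨_, rfl⟩
  rw [← hB]
  have hB0 : 0 ≤ B := hB ▸ le_max_right _ _
  obtain ⟨r, hr⟩ : ∃ r, r = len z := ⟨_, rfl⟩
  obtain ⟨s, hs⟩ : ∃ s, s = |z.2| := ⟨_, rfl⟩
  have hs0 : 0 ≤ s := hs ▸ abs_nonneg _
  simp only [core, coreA, coreB]
  rw [← hr, ← hs]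
  rw [← hr] at hz
  rcases (show (0 : ℝ) ≤ r from hr ▸ Real.sqrt_nonneg _).eq_or_lt with h0 | h0
  · subst h0; simp
  have hg := hB₀ r ⟨h0, hz⟩ (z.2 / r)
  have hc : B₀ * (1 + |z.2 / r|) / r ^ 3 ≤ B * (1 + s) / r ^ 4 := by
    rw [abs_div, abs_of_pos h0, ← hs, div_le_div_iff₀ (pow_pos h0 3) (pow_pos h0 4)]
    have : B₀ * (1 + s / r) * r ≤ B * (1 + s) := by
      rw [mul_assoc]
      refine mul_le_mul (hB ▸ le_max_left _ _) ?_ (by positivity) hB0
      rw [add_mul, one_mul, div_mul_cancel₀ _ h0.ne']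
      linarith
    calc B₀ * (1 + s / r) * r ^ 4 = B₀ * (1 + s / r) * r * r ^ 3 := by ring
      _ ≤ B * (1 + s) * r ^ 3 := mul_le_mul_of_nonneg_right this (pow_nonneg h0.le 3)
  obtain ⟨K, hK⟩ : ∃ K, K = B * (1 + s) := ⟨_, rfl⟩
  have hK0 : 0 ≤ K := hK ▸ by positivity
  have hKs : K * (1 + s) = B * (1 + s) ^ 2 := by rw [hK]; ring
  have hK1 : K ≤ B * (1 + s) ^ 2 := by rw [← hKs]; exact le_mul_of_one_le_right hK0 (by linarith)
  have hp : ∀ {j : ℕ}, 1 ≤ j → r ^ j ≤ r := fun hj => by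
    calc _ ≤ r ^ 1 := pow_le_pow_of_le_one h0.le hz hj
      _ = r := pow_one r
  have key : ∀ (j : ℕ) (x : ℝ), |x| ≤ B₀ * (1 + |z.2 / r|) / r ^ 3 →
      |r ^ (j + 4) * x| ≤ K * r ^ j := fun j x hx => by
    rw [abs_mul, abs_of_pos (pow_pos h0 _)]
    refine (mul_le_mul_of_nonneg_left (hx.trans hc) (pow_nonneg h0.le _)).trans_eq ?_
    rw [← hK, pow_add]
    field_simp
  refine ⟨?_, ?_, ?_⟩
  · refine (key 7 _ hg.1).trans ?_
    calc K * r ^ 7 ≤ B * (1 + s) ^ 2 * r ^ 4 :=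
          mul_le_mul hK1 (pow_le_pow_of_le_one h0.le hz (by norm_num)) (by positivity) (by positivity)
      _ ≤ 13 * B * (1 + s) ^ 2 * r ^ 4 := by
          refine mul_le_mul_of_nonneg_right ?_ (by positivity)
          nlinarith [mul_nonneg hB0 (sq_nonneg (1 + s))]
  · have a1 : |11 * r ^ 9 * u r (z.2 / r)| ≤ 11 * (B * (1 + s) ^ 2 * r) := by
      rw [mul_assoc, abs_mul, abs_of_pos (by norm_num : (0 : ℝ) < 11)]
      exact mul_le_mul_of_nonneg_left ((key 5 _ hg.1).trans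
        (mul_le_mul hK1 (hp (by norm_num)) (by positivity) (by positivity))) (by norm_num)
    have a2 : |r ^ 10 * ur r (z.2 / r)| ≤ B * (1 + s) ^ 2 * r :=
      (key 6 _ hg.2.1).trans (mul_le_mul hK1 (hp (by norm_num)) (by positivity) (by positivity))
    have a3 : |z.2 * r ^ 8 * uc r (z.2 / r)| ≤ B * (1 + s) ^ 2 * r := by
      rw [mul_assoc, abs_mul, ← hs, ← hKs]
      refine (mul_le_mul_of_nonneg_left (key 4 _ hg.2.2) hs0).trans ?_
      calc s * (K * r ^ 4) ≤ (1 + s) * (K * r) :=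
            mul_le_mul (by linarith) (mul_le_mul_of_nonneg_left (hp (by norm_num)) hK0)
              (by positivity) (by linarith)
        _ = K * (1 + s) * r := by ring
    refine (abs_sub _ _).trans ?_
    have := abs_add_le (11 * r ^ 9 * u r (z.2 / r)) (r ^ 10 * ur r (z.2 / r))
    linarith
  · refine (key 6 _ hg.2.2).trans ?_
    calc K * r ^ 6 ≤ B * (1 + s) ^ 2 * r :=
          mul_le_mul hK1 (hp (by norm_num)) (by positivity) (by positivity)
      _ ≤ 13 * B * (1 + s) ^ 2 * r := by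
          refine mul_le_mul_of_nonneg_right ?_ h0.le
          nlinarith [mul_nonneg hB0 (sq_nonneg (1 + s))]

lemma Smooth.hasFDerivAt_core (h : Smooth u ur uc) (z : ℝ × ℝ) :
    HasFDerivAt (core u) (coreA u ur uc z • ContinuousLinearMap.fst ℝ ℝ ℝ +
      coreB uc z • ContinuousLinearMap.snd ℝ ℝ ℝ) z := by
  rcases lt_trichotomy z.1 0 with hz | hz | hz
  · have e : core u =ᶠ[𝓝 z] fun _ => 0 := by
      filter_upwards [(isOpen_lt continuous_fst continuous_const).mem_nhds hz] with y hy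
      simp [core, len_eq_zero hy.le]
    refine ((hasFDerivAt_const (0 : ℝ) z).congr_of_eventuallyEq e).congr_fderiv ?_
    simp [coreA, coreB, len_eq_zero hz.le]
  · obtain ⟨B, hB0, hB⟩ := h.bounds
    have e0 : coreA u ur uc z • ContinuousLinearMap.fst ℝ ℝ ℝ +
        coreB uc z • ContinuousLinearMap.snd ℝ ℝ ℝ = 0 := by
      simp [coreA, coreB, len_eq_zero hz.le]
    rw [e0, hasFDerivAt_iff_isLittleO_nhds_zero]
    simp only [show core u z = 0 by simp [core, len_eq_zero hz.le], sub_zero,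
      zero_apply]
    rw [Asymptotics.isLittleO_iff]
    intro ε hε
    obtain ⟨K, hK⟩ : ∃ K, K = 4 * B * (2 + |z.2|) ^ 2 := ⟨_, rfl⟩
    have hK0 : 0 ≤ K := hK ▸ by positivity
    have hη : 0 < min (1 / 2 : ℝ) (ε / (K + 1)) := by positivity
    filter_upwards [Metric.ball_mem_nhds (0 : ℝ × ℝ) hη] with y hy
    rw [mem_ball_zero_iff, lt_min_iff] at hy
    have hy1 : |y.1| ≤ ‖y‖ := norm_fst_le y
    have hy2 : |y.2| ≤ ‖y‖ := norm_snd_le y
    have e1 : (z + y).1 = y.1 := by rw [Prod.fst_add, hz, zero_add]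
    rw [Real.norm_eq_abs]
    rcases le_or_gt y.1 0 with h1 | h1
    · rw [show core u (z + y) = 0 by simp [core, len_eq_zero (e1 ▸ h1)], abs_zero]
      positivity
    have hl2 : len (z + y) ^ 2 = 2 * y.1 := by rw [len, e1, Real.sq_sqrt (by linarith)]
    have hl : len (z + y) ≤ 1 := by
      rw [len, e1, Real.sqrt_le_one]
      linarith [le_abs_self y.1, hy.1]
    have hb := (hB _ hl).1
    have hs : 1 + |(z + y).2| ≤ 2 + |z.2| := by
      rw [Prod.snd_add]
      linarith [abs_add_le z.2 y.2, hy.1]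
    have h4 : len (z + y) ^ 4 ≤ 4 * ‖y‖ * ‖y‖ := by
      rw [show len (z + y) ^ 4 = (len (z + y) ^ 2) ^ 2 by ring, hl2, show (2 * y.1) ^ 2 = 4 * y.1 * y.1 by ring]
      have : y.1 ≤ ‖y‖ := (le_abs_self _).trans hy1
      gcongr
    calc |core u (z + y)| ≤ B * (2 + |z.2|) ^ 2 * (4 * ‖y‖ * ‖y‖) :=
          hb.trans (mul_le_mul (mul_le_mul_of_nonneg_left (pow_le_pow_left₀ (by positivity) hs 2) hB0)
            h4 (by positivity) (by positivity))
      _ = K * ‖y‖ * ‖y‖ := by rw [hK]; ring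
      _ ≤ ε * ‖y‖ := by
          refine mul_le_mul_of_nonneg_right ?_ (norm_nonneg y)
          have := hy.2.le
          rw [le_div_iff₀ (by linarith)] at this
          nlinarith [norm_nonneg y]
  · have hr := len_pos hz
    obtain ⟨r, hrd⟩ : ∃ r, r = len z := ⟨_, rfl⟩
    have hlen : HasFDerivAt len ((1 / r) • ContinuousLinearMap.fst ℝ ℝ ℝ) z := by
      have h1 : HasFDerivAt (fun y : ℝ × ℝ => 2 * y.1) ((2 : ℝ) • ContinuousLinearMap.fst ℝ ℝ ℝ) z :=
        hasFDerivAt_fst.const_mul 2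
      refine (h1.sqrt (by linarith)).congr_fderiv ?_
      rw [smul_smul, hrd, len]
      congr 1
      field_simp
    have hq : HasFDerivAt (fun y : ℝ × ℝ => (len y, y.2 / len y))
        (((1 / r) • ContinuousLinearMap.fst ℝ ℝ ℝ).prod
          ((1 / r) • ContinuousLinearMap.snd ℝ ℝ ℝ - (z.2 / r ^ 3) • ContinuousLinearMap.fst ℝ ℝ ℝ))
        z := by
      refine hlen.prodMk ?_
      simp only [div_eq_mul_inv]
      refine (hasFDerivAt_snd.mul ((hasDerivAt_inv hr.ne').comp_hasFDerivAt z hlen)).congr_fderiv ?_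
      ext <;> simp [← hrd, pow_succ]
      field_simp
      simp
    have hu := (h.hasFDerivAt hr (z.2 / len z)).comp z hq
    refine ((hlen.pow 11).mul hu).congr_fderiv ?_
    have hr' : r ≠ 0 := hrd ▸ hr.ne'
    ext <;> simp [coreA, coreB, Function.uncurry, ← hrd] <;> field_simp
    ring

lemma Smooth.contDiff_core (h : Smooth u ur uc) : ContDiff ℝ 1 (core u) := by
  rw [contDiff_one_iff_hasFDerivAt]
  refine ⟨_, ?_, h.hasFDerivAt_core⟩
  obtain ⟨B, hB0, hB⟩ := h.bounds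
  have key : ∀ f : ℝ × ℝ → ℝ, (∀ z, 0 < z.1 → ContinuousAt f z) →
      (∀ z : ℝ × ℝ, len z ≤ 1 → |f z| ≤ B * (1 + |z.2|) ^ 2 * len z) → Continuous f := by
    intro f hf hb
    refine continuous_iff_continuousAt.2 fun z => ?_
    rcases lt_or_ge 0 z.1 with hz | hz
    · exact hf z hz
    have h0 : len z = 0 := len_eq_zero hz
    have hfz : f z = 0 := by simpa [h0] using hb z (h0 ▸ zero_le_one)
    rw [ContinuousAt, hfz]
    refine squeeze_zero_norm' (a := fun y => B * (1 + |y.2|) ^ 2 * len y) ?_ ?_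
    · filter_upwards [(isOpen_lt continuous_len continuous_const).mem_nhds
        (show len z < (1 : ℝ) by rw [h0]; exact one_pos)] with y hy
      exact hb y hy.le
    · have hc : Continuous fun y : ℝ × ℝ => B * (1 + |y.2|) ^ 2 * len y :=
        (continuous_const.mul ((continuous_const.add continuous_snd.abs).pow 2)).mul continuous_len
      simpa [h0] using hc.tendsto z
  have hl : ∀ z (j : ℕ), ContinuousAt (fun y => len y ^ j) z := fun z j =>
    (continuous_len.pow j).continuousAt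
  refine ((key (coreA u ur uc) (fun z hz => ?_) fun y hy => (hB y hy).2.1).smul continuous_const).add
    ((key (coreB uc) (fun z hz => ?_) fun y hy => (hB y hy).2.2).smul continuous_const)
  · exact (((continuousAt_const.mul (hl z 9)).mul (h.continuousAt_comp (.inl rfl) hz)).add
      ((hl z 10).mul (h.continuousAt_comp (.inr (.inl rfl)) hz))).sub
      ((continuous_snd.continuousAt.mul (hl z 8)).mul (h.continuousAt_comp (.inr (.inr rfl)) hz))
  · exact (hl z 10).mul (h.continuousAt_comp (.inr (.inr rfl)) hz)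

/-! ## The weight -/

/-- The weight. -/
def wOf (u : ℝ → ℝ → ℝ) (δ η : ℝ) (z : ℝ × ℝ) : ℝ := η + core u z / rho2 δ z.1 ^ 6

/-- The factor of the regularisation. -/
def damp (δ r : ℝ) : ℝ := (r ^ 2 / (r ^ 2 + δ ^ 2)) ^ 6

/-- Its derivative. -/
def damp' (δ r : ℝ) : ℝ := 12 * r ^ 11 * δ ^ 2 / (r ^ 2 + δ ^ 2) ^ 7

variable {δ η r : ℝ}

theorem contDiff_wOf (h : Smooth u ur uc) (hδ : δ ≠ 0) (η : ℝ) : ContDiff ℝ 1 (wOf u δ η) :=
  contDiff_const.add (h.contDiff_core.div (((contDiff_rho2 δ).comp contDiff_fst).pow 6)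
    fun _ => (pow_pos (rho2_pos hδ _) 6).ne')

lemma damp_mem (hδ : δ ≠ 0) (r : ℝ) : damp δ r ∈ Icc (0 : ℝ) 1 := by
  have : 0 < r ^ 2 + δ ^ 2 := by positivity
  exact ⟨by unfold damp; positivity, pow_le_one₀ (by positivity)
    ((div_le_one this).2 (by linarith [sq_nonneg δ]))⟩

lemma damp_mono (hδ : δ ≠ 0) {p : ℝ} (hr : 0 ≤ r) (hrp : r ≤ p) : damp δ r ≤ damp δ p := by
  refine pow_le_pow_left₀ (by positivity) ?_ 6
  rw [div_le_div_iff₀ (by positivity) (by positivity)]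
  nlinarith [mul_le_mul_of_nonneg_right (pow_le_pow_left₀ hr hrp 2) (sq_nonneg δ)]

lemma damp_loss (hδ : 0 < δ) (hr : 0 ≤ r) : (1 - damp δ r) * r ≤ 6 * δ := by
  have h3 := Five.phiR_loss hδ hr
  have hm := Five.phiR_mem hδ.ne' r
  rw [show damp δ r = Five.phiR δ r ^ 2 by rw [damp, Five.phiR, ← pow_mul],
    show (1 - Five.phiR δ r ^ 2) * r = (1 + Five.phiR δ r) * ((1 - Five.phiR δ r) * r) by ring]
  nlinarith [mul_nonneg (sub_nonneg.2 hm.2) hr, hm.1, hm.2]

lemma hasDerivAt_damp (hδ : δ ≠ 0) (r : ℝ) : HasDerivAt (damp δ) (damp' δ r) r := by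
  have hs : r ^ 2 + δ ^ 2 ≠ 0 := by positivity
  refine ((((hasDerivAt_pow 2 r).div ((hasDerivAt_pow 2 r).add_const _) hs)).pow 6).congr_deriv ?_
  simp only [damp', Pi.div_apply]
  push_cast
  field_simp
  ring

lemma wOf_ray (hδ : δ ≠ 0) (hr : 0 < r) (s : ℝ) :
    wOf u δ η (r ^ 2 / 2, s) = η + damp δ r * (u r (s / r) / r) := by
  have hs : 0 < r ^ 2 + δ ^ 2 := by positivity
  have hρ : rho2 δ (r ^ 2 / 2) = r ^ 2 + δ ^ 2 := by
    rw [rho2_of_gt hδ (by nlinarith [sq_nonneg δ, sq_nonneg r])]; ring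
  simp only [wOf, core, len, sqrt_two_half hr.le, hρ, damp]
  field_simp

lemma partials_ray (h : Smooth u ur uc) (hδ : δ ≠ 0) (hr : 0 < r) (c : ℝ) :
    r * (r * Dir.wa (wOf u δ η) (r ^ 2 / 2, r * c) + c * Dir.wb (wOf u δ η) (r ^ 2 / 2, r * c)) =
        damp' δ r * u r c + damp δ r * ur r c - damp δ r * u r c / r ∧
      Dir.wb (wOf u δ η) (r ^ 2 / 2, r * c) = damp δ r * uc r c / r ^ 2 := by
  have hd : HasFDerivAt (wOf u δ η) (fderiv ℝ (wOf u δ η) (r ^ 2 / 2, r * c)) (r ^ 2 / 2, r * c) :=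
    ((contDiff_wOf h hδ η).differentiable one_ne_zero _).hasFDerivAt
  constructor
  · have h1 : HasDerivAt (fun z => wOf u δ η (z ^ 2 / 2, z * c))
        (r * Dir.wa (wOf u δ η) (r ^ 2 / 2, r * c) + c * Dir.wb (wOf u δ η) (r ^ 2 / 2, r * c)) r := by
      have hz : HasDerivAt (fun z : ℝ => (z ^ 2 / 2, z * c)) (r, c) r :=
        (((hasDerivAt_pow 2 r).div_const 2).congr_deriv (by norm_num)).prodMk
          (((hasDerivAt_id r).mul_const c).congr_deriv (by simp))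
      refine (hd.comp_hasDerivAt r hz).congr_deriv ?_
      have : ((r, c) : ℝ × ℝ) = r • ((1, 0) : ℝ × ℝ) + c • ((0, 1) : ℝ × ℝ) := by simp
      rw [this, map_add, map_smul, map_smul, Dir.wa, Dir.wb, smul_eq_mul, smul_eq_mul]
    have h2 : HasDerivAt (fun z => η + damp δ z * (u z c / z))
        (damp' δ r * (u r c / r) + damp δ r * ((ur r c * r - u r c * 1) / r ^ 2)) r :=
      ((hasDerivAt_damp hδ r).mul ((h.deriv_r r hr c).div (hasDerivAt_id r) hr.ne')).const_add η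
    have h3 := h1.unique (h2.congr_of_eventuallyEq
      (eventually_of_mem (Ioi_mem_nhds hr) fun z (hz : 0 < z) => ?_))
    · rw [h3]
      field_simp
      ring
    · simp only [wOf_ray hδ hz, mul_div_cancel_left₀ c hz.ne']
  · have h1 : HasDerivAt (fun s => wOf u δ η (r ^ 2 / 2, s))
        (Dir.wb (wOf u δ η) (r ^ 2 / 2, r * c)) (r * c) :=
      hd.comp_hasDerivAt_of_eq (r * c)
        ((hasDerivAt_const (r * c) (r ^ 2 / 2)).prodMk (hasDerivAt_id (r * c))) rfl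
    refine h1.unique ?_
    simp only [wOf_ray hδ hr]
    have h2 : HasDerivAt (fun s => u r (s / r)) (uc r c * (1 / r)) (r * c) :=
      (h.deriv_c r hr c).comp_of_eq (r * c) ((hasDerivAt_id (r * c)).div_const r)
        (by simp [mul_div_cancel_left₀ c hr.ne'])
    refine ((h2.div_const r).const_mul (damp δ r)).const_add η |>.congr_deriv ?_
    field_simp

/-! ## The kernel -/

/-- The kernel of the exact profile against the ball of radius `R`. -/
def kerU (n : ℕ) (R : ℝ) (u ur uc : ℝ → ℝ → ℝ) (r c d : ℝ) : ℝ :=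
  (1 - d ^ 2) * ur r c + Real.cosh r / Real.sinh r * (((n : ℝ) - 2) + d ^ 2) * u r c -
    |uc r c| * |d| * (Real.sqrt (1 - d ^ 2) * Real.sqrt (1 - c ^ 2)) / Real.sinh r -
    GenK.modelH n R * d * u r c

/-- The symmetrised kernel of the exact profile. -/
def symU (n : ℕ) (R : ℝ) (u ur uc : ℝ → ℝ → ℝ) (r c d : ℝ) : ℝ :=
  2 + kerU n R u ur uc r c d + kerU n R u ur uc r d c

variable {n : ℕ} {R : ℝ}

/-- The symmetrised kernel of the weight, exactly. -/
theorem sym_eval (h : Smooth u ur uc) (hδ : δ ≠ 0) (hr : 0 < r) (c d : ℝ) :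
    sym n R (wOf u δ η) r c d = 2 + damp δ r * (symU n R u ur uc r c d - 2) +
      damp' δ r * ((1 - d ^ 2) * u r c + (1 - c ^ 2) * u r d) +
      η * (((1 - d ^ 2) + r * (Real.cosh r / Real.sinh r) * (((n : ℝ) - 2) + d ^ 2) -
          GenK.modelH n R * r * d) +
        ((1 - c ^ 2) + r * (Real.cosh r / Real.sinh r) * (((n : ℝ) - 2) + c ^ 2) -
          GenK.modelH n R * r * c)) := by
  have hs := Real.sinh_pos_iff.2 hr
  have hcf : Bend.cfac 1 (r ^ 2 / 2) = r * (Real.cosh r / Real.sinh r) := by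
    rw [Bend.cfac, show 2 * (1 : ℝ) ^ 2 * (r ^ 2 / 2) = r ^ 2 by ring, Bend.csh_sq,
      ← Bend.two_mul_cshd_sq r]
    field_simp
  have key : ∀ c d : ℝ, kernS n 1 (GenK.modelH n R) (wOf u δ η) (r ^ 2 / 2) (r * c) d =
      damp δ r * kerU n R u ur uc r c d + damp' δ r * ((1 - d ^ 2) * u r c) +
        η * ((1 - d ^ 2) + r * (Real.cosh r / Real.sinh r) * (((n : ℝ) - 2) + d ^ 2) -
          GenK.modelH n R * r * d) := by
    intro c d
    obtain ⟨h1, h2⟩ := partials_ray (η := η) h hδ hr c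
    have e2 : Real.sqrt (2 * (r ^ 2 / 2) - (r * c) ^ 2) = r * Real.sqrt (1 - c ^ 2) := by
      rw [show 2 * (r ^ 2 / 2) - (r * c) ^ 2 = r ^ 2 * (1 - c ^ 2) by ring,
        Real.sqrt_mul (sq_nonneg r), Real.sqrt_sq hr.le]
    have habs : |Dir.wb (wOf u δ η) (r ^ 2 / 2, r * c)| = damp δ r * |uc r c| / r ^ 2 := by
      rw [h2, abs_div, abs_mul, abs_of_nonneg (damp_mem hδ r).1, abs_of_pos (pow_pos hr 2)]
    have hlin : 2 * (r ^ 2 / 2) * Dir.wa (wOf u δ η) (r ^ 2 / 2, r * c) +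
        r * c * Dir.wb (wOf u δ η) (r ^ 2 / 2, r * c) =
        r * (r * Dir.wa (wOf u δ η) (r ^ 2 / 2, r * c) +
          c * Dir.wb (wOf u δ η) (r ^ 2 / 2, r * c)) := by ring
    simp only [kernS]
    rw [hlin, h1, habs, e2, sqrt_two_half hr.le, hcf, sfac_one hr, wOf_ray hδ hr,
      mul_div_cancel_left₀ c hr.ne', kerU]
    field_simp
    ring
  rw [sym, key, key, symU]
  ring

lemma modelH_eq (n : ℕ) {R : ℝ} (hR : 0 < R) :
    GenK.modelH n R = ((n : ℝ) - 1) / Real.tanh R := by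
  have := (Real.sinh_pos_iff.2 hR).ne'
  have := (Real.cosh_pos R).ne'
  rw [GenK.modelH, Real.tanh_eq_sinh_div_cosh]
  field_simp

/-- The kernel of the weight is at least the damped exact one, less the cost of the constant. -/
theorem sym_lower (hn : 2 ≤ n) (hR : 0 < R) (h : Smooth u ur uc) (hδ : δ ≠ 0) (hη : 0 ≤ η) {B : ℝ}
    (hr : r ∈ Ioc 0 B) (hu : ∀ c ∈ Icc (-1 : ℝ) 1, 0 ≤ u r c) {c d : ℝ} (hc : c ∈ Icc (-1 : ℝ) 1)
    (hd : d ∈ Icc (-1 : ℝ) 1) :
    damp δ r * symU n R u ur uc r c d - η * (2 * n * B / Real.tanh R) ≤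
      sym n R (wOf u δ η) r c d := by
  obtain ⟨hr0, hrB⟩ := hr
  have hT := tanh_pos hR
  rw [sym_eval h hδ hr0, modelH_eq n hR]
  have hn' : (2 : ℝ) ≤ n := by exact_mod_cast hn
  have h1 : 0 ≤ damp' δ r * ((1 - d ^ 2) * u r c + (1 - c ^ 2) * u r d) :=
    mul_nonneg (by unfold damp'; positivity) (add_nonneg
      (mul_nonneg (one_sub_sq_nonneg hd) (hu c hc)) (mul_nonneg (one_sub_sq_nonneg hc) (hu d hd)))
  have h2 : ∀ x : ℝ, x ∈ Icc (-1 : ℝ) 1 → -((n : ℝ) * B / Real.tanh R) ≤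
      (1 - x ^ 2) + r * (Real.cosh r / Real.sinh r) * (((n : ℝ) - 2) + x ^ 2) -
        ((n : ℝ) - 1) / Real.tanh R * r * x := by
    intro x hx
    have := one_sub_sq_nonneg hx
    have : 0 ≤ r * (Real.cosh r / Real.sinh r) * (((n : ℝ) - 2) + x ^ 2) := by
      have := Real.sinh_pos_iff.2 hr0
      have := Real.cosh_pos r
      refine mul_nonneg (by positivity) ?_
      nlinarith
    have h4 : ((n : ℝ) - 1) / Real.tanh R * r * x ≤ (n : ℝ) * B / Real.tanh R := by
      rw [show ((n : ℝ) - 1) / Real.tanh R * r * x = ((n : ℝ) - 1) * (r * x) / Real.tanh R by ring]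
      refine div_le_div_of_nonneg_right ?_ hT.le
      nlinarith [mul_le_mul_of_nonneg_left hx.2 hr0.le]
    linarith
  have h3 := mul_le_mul_of_nonneg_left (add_le_add (h2 d hd) (h2 c hc)) hη
  have h5 := (damp_mem hδ r).2
  rw [show η * (-((n : ℝ) * B / Real.tanh R) + -((n : ℝ) * B / Real.tanh R)) =
    -(η * (2 * n * B / Real.tanh R)) by ring] at h3
  linarith

theorem wOf_pos (hδ : δ ≠ 0) (hη : 0 < η) (hu : ∀ r, 0 < r → ∀ c ∈ Icc (-1 : ℝ) 1, 0 ≤ u r c)
    {p q : ℝ} (hp : 0 ≤ p) (hq : q ^ 2 ≤ 2 * p) : 0 < wOf u δ η (p, q) := by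
  rcases hp.eq_or_lt with h | h
  · subst h
    simp [wOf, core, len, hη]
  obtain ⟨r, hr⟩ : ∃ r, r = Real.sqrt (2 * p) := ⟨_, rfl⟩
  have hr0 : 0 < r := hr ▸ Real.sqrt_pos.2 (by linarith)
  have hpr : r ^ 2 / 2 = p := by rw [hr, Real.sq_sqrt (by linarith)]; ring
  have hq1 : q / r ∈ Icc (-1 : ℝ) 1 := by
    rw [mem_Icc, le_div_iff₀ hr0, div_le_one hr0]
    constructor <;> nlinarith [sq_nonneg (q - r), sq_nonneg (q + r)]
  rw [← hpr, wOf_ray hδ hr0]
  exact add_pos_of_pos_of_nonneg hη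
    (mul_nonneg (damp_mem hδ r).1 (div_nonneg (hu r hr0 _ hq1) hr0.le))

/-- The weight on a ray dominates the damped exact one. -/
theorem gain_lower (hδ : δ ≠ 0) (hη : 0 ≤ η) (hr : 0 < r) {c d : ℝ} (hc : 0 ≤ u r c)
    (hd : 0 ≤ u r d) :
    damp δ r * (2 * |c * d| * Real.sqrt (u r c * u r d) / Real.sinh r) ≤
      gainW (wOf u δ η) r c d := by
  have hs := Real.sinh_pos_iff.2 hr
  obtain ⟨P, hP⟩ : ∃ P, P = damp δ r / r := ⟨_, rfl⟩
  have hP0 : 0 ≤ P := hP ▸ div_nonneg (damp_mem hδ r).1 hr.le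
  have hw : ∀ x : ℝ, wOf u δ η (r ^ 2 / 2, r * x) = η + P * u r x := fun x => by
    rw [wOf_ray hδ hr, mul_div_cancel_left₀ x hr.ne', hP]
    ring
  have h1 : P * Real.sqrt (u r c * u r d) ≤
      Real.sqrt (wOf u δ η (r ^ 2 / 2, r * c) * wOf u δ η (r ^ 2 / 2, r * d)) := by
    refine Real.le_sqrt_of_sq_le ?_
    rw [hw, hw, mul_pow, Real.sq_sqrt (mul_nonneg hc hd)]
    nlinarith [mul_nonneg (mul_nonneg hη hP0) hc, mul_nonneg (mul_nonneg hη hP0) hd,
      mul_nonneg hη hη]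
  rw [gainW, sfac_one hr]
  calc damp δ r * (2 * |c * d| * Real.sqrt (u r c * u r d) / Real.sinh r)
      = 2 * |c * d| * (P * Real.sqrt (u r c * u r d)) / (Real.sinh r / r) := by
        rw [hP]; field_simp
    _ ≤ _ := by gcongr

end Vale.Agent.P219.CH.Relax.Profile2D
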