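import Vale.Agent.P219.Relax.Profile2D.Weight
import Vale.Agent.P219.Relax.LineOf

/-!
# P219: a relaxed certificate from pointwise facts of a profile

Any profile in the distance and the cosine, with the facts below for its exact kernel, gives a
certificate against the ball of radius `R` in any dimension.
-/

noncomputable section

open Set Filter Topology MeasureTheory

namespace Vale.Agent.P219.CH.Relax.Profile2D

open GenK.Four (tanh_pos)

/-- The pointwise facts of a profile against the ball of radius `R`: the gain pays for the negative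
part of the kernel, an inward pair pays its two values, a pair with an outward cosine is
nonnegative, and a negative inward pair is paid by a mixed pair further out at the same crossing,
through a level `L` that increases with the distance. -/
structure Facts (n : ℕ) (R : ℝ) (a : ℝ → ℝ) (β : ℝ) (u ur uc L : ℝ → ℝ → ℝ) : Prop where
  nonneg : ∀ r, 0 < r → ∀ c ∈ Icc (-1 : ℝ) 1, 0 ≤ u r c
  gain : ∀ r, 0 < r → ∀ c ∈ Icc (-1 : ℝ) 1, ∀ d ∈ Icc (-1 : ℝ) 1,
    0 ≤ symU n R u ur uc r c d + 2 * |c * d| * Real.sqrt (u r c * u r d) / Real.sinh r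
  pair : ∀ r, 0 < r → ∀ c ∈ Ioc (0 : ℝ) 1, ∀ d ∈ Ioc (0 : ℝ) 1,
    c * d * (a c / c + a d / d + 2 * β * r) ≤ Real.sinh r ^ (n - 1) * symU n R u ur uc r c d
  outward : ∀ r, 0 < r → ∀ c ∈ Ioc (0 : ℝ) 1, ∀ d ∈ Ioc (0 : ℝ) 1,
    0 ≤ symU n R u ur uc r c (-d) ∧ 0 ≤ symU n R u ur uc r (-c) (-d)
  level_nonneg : ∀ r, 0 < r → ∀ c ∈ Ioc (0 : ℝ) 1, 0 ≤ L r c
  level_mono : ∀ c ∈ Ioc (0 : ℝ) 1, MonotoneOn (fun r => L r c) (Ioi 0)
  level_in : ∀ r, 0 < r → ∀ c ∈ Ioc (0 : ℝ) 1, ∀ d ∈ Ioc (0 : ℝ) 1,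
    -(c * d * L r c) ≤ Real.sinh r ^ (n - 1) * symU n R u ur uc r c d
  level_mixed : ∀ r, 0 < r → ∀ c ∈ Ioc (0 : ℝ) 1, ∀ d ∈ Ioc (0 : ℝ) 1,
    c * d * L r c ≤ Real.sinh r ^ (n - 1) * symU n R u ur uc r c (-d)

variable {n : ℕ} [NeZero n] {R β : ℝ} {a : ℝ → ℝ} {u ur uc L : ℝ → ℝ → ℝ}

/-- The certificate from a smooth profile with the facts, and the value. -/
theorem certAt_of_profile (hn : 2 ≤ n) (hR : 0 < R) (h : Smooth u ur uc)
    (hf : Facts n R a β u ur uc L) (hβ : 0 ≤ β) (hm : Measurable a)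
    (ha : ∀ c ∈ Icc (0 : ℝ) 1, a c ≤ 0) (hb : ∃ B, ∀ c ∈ Icc (0 : ℝ) 1, -B ≤ a c)
    (hv : Real.sinh R ^ (2 * (n - 1)) + Gen.cmean n (fun c => -a c) * Real.sinh R ^ (n - 1) ≤
      β * ∫ t in (0 : ℝ)..R, Real.sinh t ^ (n - 1)) :
    CertAt n R a β := by
  refine ⟨hβ, hm, ha, hb, hv, ?_⟩
  intro ε T hε hTT
  have hT := tanh_pos hR
  obtain ⟨δ, hδd⟩ : ∃ δ, δ = ε / (6 * (β + 1)) := ⟨_, rfl⟩
  obtain ⟨η, hηd⟩ : ∃ η, η = ε * Real.tanh R / (2 * n * T) := ⟨_, rfl⟩
  have hn0 : (0 : ℝ) < n := by exact_mod_cast (by omega : 0 < n)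
  have hδ : 0 < δ := hδd ▸ by positivity
  have hη : 0 < η := hηd ▸ by positivity
  have hloss : η * (2 * n * T / Real.tanh R) = ε := by rw [hηd]; field_simp
  have hδβ : 6 * δ * β ≤ ε := by
    rw [hδd]
    field_simp
    linarith
  have low : ∀ r c d, r ∈ Ioc 0 T → c ∈ Icc (-1 : ℝ) 1 → d ∈ Icc (-1 : ℝ) 1 →
      damp δ r * symU n R u ur uc r c d ≤ sym n R (wOf u δ η) r c d + ε := fun r c d hr hc hd => by
    have := sym_lower hn hR h hδ.ne' hη.le hr (hf.nonneg r hr.1) hc hd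
    rw [hloss] at this
    linarith
  have hin : ∀ {x : ℝ}, x ∈ Ioc (0 : ℝ) 1 → x ∈ Icc (-1 : ℝ) 1 ∧ -x ∈ Icc (-1 : ℝ) 1 := fun hx =>
    ⟨⟨by linarith [hx.1], hx.2⟩, by linarith [hx.2], by linarith [hx.1]⟩
  refine ⟨wOf u δ η, contDiff_wOf h hδ.ne' η,
    fun p q hp hq => wOf_pos hδ.ne' hη hf.nonneg hp hq, ?_, ?_⟩
  · intro r c d hr hc hd
    rcases hr.1.eq_or_lt with h0 | h0
    · subst h0
      have hsym : sym n R (wOf u δ η) 0 c d = 2 + 2 * ((n : ℝ) - 1) * η := by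
        have hcf : Bend.cfac 1 0 = 1 := by simp [Bend.cfac, Bend.csh_zero, Bend.cshd_zero]
        have hw : wOf u δ η (0, 0) = η := by simp [wOf, core, len]
        simp only [sym, kernS, zero_pow two_ne_zero, zero_div, zero_mul, mul_zero, sub_zero,
          Real.sqrt_zero, hcf, hw, add_zero, one_mul]
        ring
      have : 0 ≤ gainW (wOf u δ η) 0 c d := by
        rw [gainW]
        exact div_nonneg (by positivity) (Bend.sfac_pos 1 (by norm_num)).le
      rw [hsym]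
      have : (1 : ℝ) ≤ n := by exact_mod_cast (by omega : 1 ≤ n)
      nlinarith
    · have h1 := low r c d ⟨h0, hr.2⟩ hc hd
      have h2 := gain_lower (η := η) hδ.ne' hη.le h0 (hf.nonneg r h0 c hc) (hf.nonneg r h0 d hd)
      have h3 := mul_nonneg (damp_mem hδ.ne' r).1 (hf.gain r h0 c hc d hd)
      rw [mul_add] at h3
      linarith
  refine lineOK_of_pointwise hβ hε.le (fun c hc => ha c (Ioc_subset_Icc_self hc)) ?_ ?_ ?_
  · intro r c d hr hc hd
    have hcd : 0 < c * d := mul_pos hc.1 hd.1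
    have hS : 0 ≤ Real.sinh r ^ (n - 1) := pow_nonneg (Real.sinh_pos_iff.2 hr.1).le _
    have h1 := mul_le_mul_of_nonneg_left (low r c d hr (hin hc).1 (hin hd).1) hS
    have h2 := mul_le_mul_of_nonneg_left (hf.pair r hr.1 c hc d hd) (damp_mem hδ.ne' r).1
    have hA : a c / c + a d / d ≤ 0 :=
      add_nonpos (div_nonpos_of_nonpos_of_nonneg (ha c (Ioc_subset_Icc_self hc)) hc.1.le)
        (div_nonpos_of_nonpos_of_nonneg (ha d (Ioc_subset_Icc_self hd)) hd.1.le)
    have h3 : a c / c + a d / d + 2 * β * r - 2 * ε ≤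
        damp δ r * (a c / c + a d / d + 2 * β * r) := by
      have := mul_le_mul_of_nonneg_left (damp_loss hδ hr.1.le) hβ
      have := mul_nonpos_of_nonpos_of_nonneg hA (sub_nonneg.2 (damp_mem hδ.ne' r).2)
      linarith
    have h4 := mul_le_mul_of_nonneg_left h3 hcd.le
    rw [phi, abs_of_pos hcd, le_div_iff₀ hcd]
    linarith
  · intro r p c d e hr hrp hpT hc hd he
    have hp0 := hr.trans_le hrp
    have hcd := mul_pos hc.1 hd.1
    have hce := mul_pos hc.1 he.1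
    have h1 : -(damp δ r * L r c) ≤ phi n R ε (wOf u δ η) r c d := by
      have h6 := mul_le_mul_of_nonneg_left (low r c d ⟨hr, hrp.trans hpT⟩ (hin hc).1 (hin hd).1)
        (pow_nonneg (Real.sinh_pos_iff.2 hr).le (n - 1))
      have h7 := mul_le_mul_of_nonneg_left (hf.level_in r hr c hc d hd) (damp_mem hδ.ne' r).1
      rw [phi, abs_of_pos hcd, le_div_iff₀ hcd]
      linarith
    have h2 : damp δ p * L p c ≤ phi n R ε (wOf u δ η) p c (-e) := by
      have h6 := mul_le_mul_of_nonneg_left (low p c (-e) ⟨hp0, hpT⟩ (hin hc).1 (hin he).2)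
        (pow_nonneg (Real.sinh_pos_iff.2 hp0).le (n - 1))
      have h7 := mul_le_mul_of_nonneg_left (hf.level_mixed p hp0 c hc e he) (damp_mem hδ.ne' p).1
      rw [phi, mul_neg, abs_neg, abs_of_pos hce, le_div_iff₀ hce]
      linarith
    have := mul_le_mul (damp_mono hδ.ne' hr.le hrp) (hf.level_mono c hc hr hp0 hrp)
      (hf.level_nonneg r hr c hc) (damp_mem hδ.ne' p).1
    linarith
  · intro r c d hr hc hd
    have hS := pow_nonneg (Real.sinh_pos_iff.2 hr.1).le (n - 1)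
    obtain ⟨h1, h2⟩ := hf.outward r hr.1 c hc d hd
    have hf0 := (damp_mem hδ.ne' r).1
    have a1 := low r c (-d) hr (hin hc).1 (hin hd).2
    have a2 := low r (-c) (-d) hr (hin hc).2 (hin hd).2
    exact ⟨div_nonneg (mul_nonneg hS ((mul_nonneg hf0 h1).trans a1)) (abs_nonneg _),
      div_nonneg (mul_nonneg hS ((mul_nonneg hf0 h2).trans a2)) (abs_nonneg _)⟩

end Vale.Agent.P219.CH.Relax.Profile2D
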