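import Vale.Agent.P219.Relax.Profile2D.Cert
import Vale.Agent.P219.Relax.Rigid.Defs
import Vale.Agent.P219.Relax.Strict.LineOf

/-!
# P219: a strict certificate from pointwise facts of a profile

In any dimension: if the exact symmetrised kernel of a profile meets the least that the line
condition asks of it only on the contact of the model sphere with its chords, the certificate is
strict. The slack is the difference of the two, at most the distance.
-/

noncomputable section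

open Set Filter Topology MeasureTheory

namespace Vale.Agent.P219.CH.Relax.Profile2D

open GenK.Four (tanh_pos)

/-- The positive part. -/
def posP (x : ℝ) : ℝ := max x 0

/-- The cosine clamped to the unit interval. -/
def clampC (c : ℝ) : ℝ := max 0 (min 1 c)

/-- The least the line condition asks of the exact kernel, for a level that does not depend on the
cosine: two values and the volume term or minus the level if both are inward, the level if one is. -/
def lowF (n : ℕ) (a : ℝ → ℝ) (β : ℝ) (L : ℝ → ℝ) (r c d : ℝ) : ℝ :=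
  max ((posP c * a (clampC d) + posP d * a (clampC c) + 2 * β * r * (posP c * posP d)) /
      Real.sinh r ^ (n - 1))
    (-(posP c * posP d * L r) / Real.sinh r ^ (n - 1)) +
  (posP c * posP (-d) + posP (-c) * posP d) * L r / Real.sinh r ^ (n - 1)

/-- The slack. -/
def kapF (n : ℕ) (R : ℝ) (u ur uc : ℝ → ℝ → ℝ) (a : ℝ → ℝ) (β : ℝ) (L : ℝ → ℝ)
    (z : ℝ × ℝ × ℝ) : ℝ :=
  min (posP z.1)
    (posP (symU n R u ur uc z.1 z.2.1 z.2.2 - lowF n a β L z.1 z.2.1 z.2.2))

variable {n : ℕ} {R β : ℝ} {a L : ℝ → ℝ} {u ur uc : ℝ → ℝ → ℝ}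

lemma posP_of_nonneg {x : ℝ} (h : 0 ≤ x) : posP x = x := max_eq_left h

lemma posP_of_nonpos {x : ℝ} (h : x ≤ 0) : posP x = 0 := max_eq_right h

lemma clampC_of_mem {c : ℝ} (hc : c ∈ Icc (0 : ℝ) 1) : clampC c = c := by
  rw [clampC, min_eq_right hc.2, max_eq_right hc.1]

lemma clampC_of_nonpos {c : ℝ} (hc : c ≤ 0) : clampC c = 0 :=
  max_eq_left ((min_le_right 1 c).trans hc)

lemma symU_comm (r c d : ℝ) : symU n R u ur uc r c d = symU n R u ur uc r d c := by
  simp only [symU]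
  ring

lemma kapF_nonneg (z : ℝ × ℝ × ℝ) : 0 ≤ kapF n R u ur uc a β L z :=
  le_min (le_max_right _ _) (le_max_right _ _)

lemma kapF_comm (r c d : ℝ) :
    kapF n R u ur uc a β L (r, c, d) = kapF n R u ur uc a β L (r, d, c) := by
  simp only [kapF, lowF, symU_comm r c d]
  ring_nf

lemma lowF_inward {r c d : ℝ} (hc : c ∈ Icc (0 : ℝ) 1) (hd : d ∈ Icc (0 : ℝ) 1) :
    lowF n a β L r c d = max ((c * a d + d * a c + 2 * β * r * (c * d)) / Real.sinh r ^ (n - 1))
      (-(c * d * L r) / Real.sinh r ^ (n - 1)) := by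
  simp only [lowF, posP_of_nonneg hc.1, posP_of_nonneg hd.1, posP_of_nonpos (neg_nonpos.2 hc.1),
    posP_of_nonpos (neg_nonpos.2 hd.1), clampC_of_mem hc, clampC_of_mem hd, mul_zero, zero_mul,
    add_zero, zero_div]

lemma lowF_mixed (ha0 : a 0 = 0) {r c d : ℝ} (hc : c ∈ Icc (0 : ℝ) 1) (hd : d ∈ Icc (0 : ℝ) 1) :
    lowF n a β L r c (-d) = c * d * L r / Real.sinh r ^ (n - 1) := by
  simp only [lowF, neg_neg, posP_of_nonneg hc.1, posP_of_nonneg hd.1,
    posP_of_nonpos (neg_nonpos.2 hc.1), posP_of_nonpos (neg_nonpos.2 hd.1),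
    clampC_of_nonpos (neg_nonpos.2 hd.1), ha0, mul_zero, zero_mul, add_zero, neg_zero, zero_div,
    max_self, zero_add]

lemma lowF_mixed' (ha0 : a 0 = 0) {r c d : ℝ} (hc : c ∈ Icc (0 : ℝ) 1) (hd : d ∈ Icc (0 : ℝ) 1) :
    lowF n a β L r (-d) c = c * d * L r / Real.sinh r ^ (n - 1) := by
  rw [← lowF_mixed (β := β) ha0 hc hd]
  simp only [lowF]
  ring_nf

lemma lowF_outward (ha0 : a 0 = 0) {r c d : ℝ} (hc : c ≤ 0) (hd : d ≤ 0) :
    lowF n a β L r c d = 0 := by
  simp only [lowF, posP_of_nonpos hc, posP_of_nonpos hd, clampC_of_nonpos hc, clampC_of_nonpos hd,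
    ha0, mul_zero, zero_mul, add_zero, zero_div, neg_zero, max_self]

lemma lowF_zero (ha0 : a 0 = 0) {r c d : ℝ} (h : c * d = 0) : lowF n a β L r c d = 0 := by
  rcases mul_eq_zero.1 h with rfl | rfl <;>
    simp only [lowF, neg_zero, posP_of_nonpos (le_refl (0 : ℝ)), clampC_of_nonpos (le_refl (0 : ℝ)),
      ha0, mul_zero, zero_mul, add_zero, zero_div, max_self]

/-- The facts say that the exact kernel is at least what is asked. -/
lemma lowF_le (hf : Facts n R a β u ur uc fun r _ => L r) (ha0 : a 0 = 0) {r c d : ℝ} (hr : 0 < r)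
    (hc : c ∈ Icc (-1 : ℝ) 1) (hd : d ∈ Icc (-1 : ℝ) 1) :
    lowF n a β L r c d ≤ symU n R u ur uc r c d := by
  have hS : 0 < Real.sinh r ^ (n - 1) := pow_pos (Real.sinh_pos_iff.2 hr) _
  by_cases h0 : c * d = 0
  · rw [lowF_zero ha0 h0]
    have := hf.gain r hr c hc d hd
    rwa [h0, abs_zero, mul_zero, zero_mul, zero_div, add_zero] at this
  obtain ⟨hc0, hd0⟩ := mul_ne_zero_iff.1 h0
  rcases lt_or_gt_of_ne hc0 with hcs | hcs <;> rcases lt_or_gt_of_ne hd0 with hds | hds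
  · rw [lowF_outward ha0 hcs.le hds.le]
    have := (hf.outward r hr (-c) ⟨by linarith, by linarith [hc.1]⟩ (-d)
      ⟨by linarith, by linarith [hd.1]⟩).2
    rwa [neg_neg, neg_neg] at this
  · obtain ⟨k, rfl⟩ : ∃ k, c = -k := ⟨-c, (neg_neg c).symm⟩
    have hk : k ∈ Ioc (0 : ℝ) 1 := ⟨by linarith, by linarith [hc.1]⟩
    have := hf.level_mixed r hr d ⟨hds, hd.2⟩ k hk
    rw [lowF_mixed' ha0 ⟨hds.le, hd.2⟩ (Ioc_subset_Icc_self hk), symU_comm, div_le_iff₀ hS]
    linarith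
  · obtain ⟨k, rfl⟩ : ∃ k, d = -k := ⟨-d, (neg_neg d).symm⟩
    have hk : k ∈ Ioc (0 : ℝ) 1 := ⟨by linarith, by linarith [hd.1]⟩
    have := hf.level_mixed r hr c ⟨hcs, hc.2⟩ k hk
    rw [lowF_mixed ha0 ⟨hcs.le, hc.2⟩ (Ioc_subset_Icc_self hk), div_le_iff₀ hS]
    linarith
  · have hcI : c ∈ Ioc (0 : ℝ) 1 := ⟨hcs, hc.2⟩
    have hdI : d ∈ Ioc (0 : ℝ) 1 := ⟨hds, hd.2⟩
    have h1 := hf.pair r hr c hcI d hdI
    have e : c * d * (a c / c + a d / d + 2 * β * r) =
        c * a d + d * a c + 2 * β * r * (c * d) := by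
      field_simp
      ring
    rw [e] at h1
    rw [lowF_inward (Ioc_subset_Icc_self hcI) (Ioc_subset_Icc_self hdI)]
    refine max_le ?_ ?_ <;> rw [div_le_iff₀ hS]
    · linarith
    · linarith [hf.level_in r hr c hcI d hdI]

lemma continuous_kapF (h : Smooth u ur uc) (hL : ContinuousOn L (Ioi 0))
    (hac : ContinuousOn a (Icc 0 1)) : Continuous (kapF n R u ur uc a β L) := by
  have hpp : Continuous posP := by unfold posP; fun_prop
  have hA : Continuous fun c => a (clampC c) :=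
    hac.comp_continuous (by unfold clampC; fun_prop)
      fun c => ⟨le_max_left _ _, max_le zero_le_one (min_le_left _ _)⟩
  have hpos : IsOpen {z : ℝ × ℝ × ℝ | 0 < z.1} := isOpen_lt continuous_const continuous_fst
  refine continuous_iff_continuousAt.2 fun z => ?_
  rcases le_or_gt z.1 0 with hz | hz
  · have h0 : kapF n R u ur uc a β L z = 0 := by
      rw [kapF, posP_of_nonpos hz]
      exact min_eq_left (le_max_right _ _)
    rw [ContinuousAt, h0]
    refine squeeze_zero (fun w => kapF_nonneg w) (fun w => min_le_left _ _) ?_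
    have := (hpp.comp (continuous_fst (X := ℝ) (Y := ℝ × ℝ))).tendsto z
    rwa [Function.comp_apply, posP_of_nonpos hz] at this
  refine ContinuousOn.continuousAt ?_ (hpos.mem_nhds hz)
  have hsh : ∀ w ∈ {z : ℝ × ℝ × ℝ | 0 < z.1}, Real.sinh w.1 ≠ 0 := fun w hw =>
    (Real.sinh_pos_iff.2 hw).ne'
  have hS : ∀ w ∈ {z : ℝ × ℝ × ℝ | 0 < z.1}, Real.sinh w.1 ^ (n - 1) ≠ 0 := fun w hw =>
    pow_ne_zero _ (hsh w hw)
  have hu : ContinuousOn (Function.uncurry u) (Ioi 0 ×ˢ univ) := fun v hv =>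
    (h.hasFDerivAt hv.1 v.2).continuousAt.continuousWithinAt
  have hcomp : ∀ {f : ℝ → ℝ → ℝ}, ContinuousOn (Function.uncurry f) (Ioi 0 ×ˢ univ) →
      ContinuousOn (fun w : ℝ × ℝ × ℝ => f w.1 w.2.1) {z | 0 < z.1} ∧
        ContinuousOn (fun w : ℝ × ℝ × ℝ => f w.1 w.2.2) {z | 0 < z.1} := fun hf =>
    ⟨hf.comp (continuous_fst.prodMk (continuous_fst.comp continuous_snd)).continuousOn
      fun w hw => ⟨hw, mem_univ _⟩,
    hf.comp (continuous_fst.prodMk (continuous_snd.comp continuous_snd)).continuousOn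
      fun w hw => ⟨hw, mem_univ _⟩⟩
  obtain ⟨hu1, hu2⟩ := hcomp hu
  obtain ⟨hr1, hr2⟩ := hcomp h.cont_r
  obtain ⟨hc1, hc2⟩ := hcomp h.cont_c
  have hLw : ContinuousOn (fun w : ℝ × ℝ × ℝ => L w.1) {z | 0 < z.1} :=
    hL.comp continuousOn_fst fun w hw => hw
  have hA1 : ContinuousOn (fun w : ℝ × ℝ × ℝ => a (clampC w.2.1)) {z | 0 < z.1} :=
    (hA.comp (continuous_fst.comp continuous_snd)).continuousOn
  have hA2 : ContinuousOn (fun w : ℝ × ℝ × ℝ => a (clampC w.2.2)) {z | 0 < z.1} :=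
    (hA.comp (continuous_snd.comp continuous_snd)).continuousOn
  have hco : ContinuousOn (fun w : ℝ × ℝ × ℝ => Real.cosh w.1 / Real.sinh w.1) {z | 0 < z.1} :=
    ContinuousOn.div (by fun_prop) (by fun_prop) hsh
  have k1 : ContinuousOn (fun w : ℝ × ℝ × ℝ => kerU n R u ur uc w.1 w.2.1 w.2.2) {z | 0 < z.1} := by
    unfold kerU
    exact ((((by fun_prop : ContinuousOn (fun w : ℝ × ℝ × ℝ => 1 - w.2.2 ^ 2) _).mul hr1).add
      ((hco.mul (by fun_prop : ContinuousOn (fun w : ℝ × ℝ × ℝ => (n : ℝ) - 2 + w.2.2 ^ 2) _)).mul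
        hu1)).sub (((hc1.abs.mul
          (by fun_prop : ContinuousOn (fun w : ℝ × ℝ × ℝ => |w.2.2|) _)).mul
          (by fun_prop : ContinuousOn (fun w : ℝ × ℝ × ℝ =>
            Real.sqrt (1 - w.2.2 ^ 2) * Real.sqrt (1 - w.2.1 ^ 2)) _)).div
          (by fun_prop) hsh)).sub
      ((by fun_prop : ContinuousOn (fun w : ℝ × ℝ × ℝ => GenK.modelH n R * w.2.2) _).mul hu1)
  have k2 : ContinuousOn (fun w : ℝ × ℝ × ℝ => kerU n R u ur uc w.1 w.2.2 w.2.1) {z | 0 < z.1} := by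
    unfold kerU
    exact ((((by fun_prop : ContinuousOn (fun w : ℝ × ℝ × ℝ => 1 - w.2.1 ^ 2) _).mul hr2).add
      ((hco.mul (by fun_prop : ContinuousOn (fun w : ℝ × ℝ × ℝ => (n : ℝ) - 2 + w.2.1 ^ 2) _)).mul
        hu2)).sub (((hc2.abs.mul
          (by fun_prop : ContinuousOn (fun w : ℝ × ℝ × ℝ => |w.2.1|) _)).mul
          (by fun_prop : ContinuousOn (fun w : ℝ × ℝ × ℝ =>
            Real.sqrt (1 - w.2.1 ^ 2) * Real.sqrt (1 - w.2.2 ^ 2)) _)).div
          (by fun_prop) hsh)).sub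
      ((by fun_prop : ContinuousOn (fun w : ℝ × ℝ × ℝ => GenK.modelH n R * w.2.1) _).mul hu2)
  have p1 : ∀ {g : ℝ × ℝ × ℝ → ℝ}, Continuous g →
      ContinuousOn (fun w => posP (g w)) {z : ℝ × ℝ × ℝ | 0 < z.1} := fun hg =>
    (hpp.comp hg).continuousOn
  have q1 := p1 (g := fun w => w.2.1) (by fun_prop)
  have q2 := p1 (g := fun w => w.2.2) (by fun_prop)
  have q3 := p1 (g := fun w => -w.2.1) (by fun_prop)
  have q4 := p1 (g := fun w => -w.2.2) (by fun_prop)
  have hlow : ContinuousOn (fun w : ℝ × ℝ × ℝ => lowF n a β L w.1 w.2.1 w.2.2) {z | 0 < z.1} := by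
    unfold lowF
    exact (ContinuousOn.sup
      ((((q1.mul hA2).add (q2.mul hA1)).add ((continuousOn_const.mul continuousOn_fst).mul
        (q1.mul q2))).div (by fun_prop) hS)
      ((((q1.mul q2).mul hLw).neg).div (by fun_prop) hS)).add
      ((((q1.mul q4).add (q3.mul q2)).mul hLw).div (by fun_prop) hS)
  unfold kapF symU
  exact (p1 (g := fun w => w.1) continuous_fst).inf
    (hpp.comp_continuousOn (((continuousOn_const.add k1).add k2).sub hlow))

lemma sym_at_zero [NeZero n] (_hn : 2 ≤ n) {δ η c d : ℝ} :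
    sym n R (wOf u δ η) 0 c d = 2 + 2 * ((n : ℝ) - 1) * η := by
  have hcf : Bend.cfac 1 0 = 1 := by simp [Bend.cfac, Bend.csh_zero, Bend.cshd_zero]
  have hw : wOf u δ η (0, 0) = η := by simp [wOf, core, len]
  simp only [sym, kernS, zero_pow two_ne_zero, zero_div, zero_mul, mul_zero, sub_zero,
    Real.sqrt_zero, hcf, hw, add_zero, one_mul]
  ring

/-- A strict certificate from a smooth profile with the facts, the value, and strictness. -/
theorem strictAt_of_profile [NeZero n] (hn : 2 ≤ n) (hR : 0 < R) (h : Smooth u ur uc)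
    (hf : Facts n R a β u ur uc fun r _ => L r) (hL : ContinuousOn L (Ioi 0))
    (hac : ContinuousOn a (Icc 0 1)) (ha0 : a 0 = 0) (hβ : 0 ≤ β) (hm : Measurable a)
    (ha : ∀ c ∈ Icc (0 : ℝ) 1, a c ≤ 0) (hb : ∃ B, ∀ c ∈ Icc (0 : ℝ) 1, -B ≤ a c)
    (hv : Real.sinh R ^ (2 * (n - 1)) + Gen.cmean n (fun c => -a c) * Real.sinh R ^ (n - 1) ≤
      β * ∫ t in (0 : ℝ)..R, Real.sinh t ^ (n - 1))
    (hstr : ∀ r c d, 0 < r → c ∈ Icc (-1 : ℝ) 1 → d ∈ Icc (-1 : ℝ) 1 →
      symU n R u ur uc r c d = lowF n a β L r c d →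
        Real.cosh R * (Real.cosh r - 1) = Real.sinh R * Real.sinh r * c ∨
          (c = 1 ∧ 2 * R ≤ r)) :
    Rigid.StrictAt n R a β (kapF n R u ur uc a β L) := by
  refine ⟨hβ, hm, ha, hb, hv, ⟨continuous_kapF h hL hac, fun r c d => kapF_nonneg _,
    fun r c d hr hc hd h0 => ?_⟩, ?_⟩
  · refine hstr r c d hr hc hd (le_antisymm ?_ (lowF_le hf ha0 hr hc hd))
    by_contra hlt
    rw [not_le] at hlt
    rw [kapF, posP_of_nonneg hr.le, posP_of_nonneg (sub_nonneg.2 hlt.le)] at h0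
    exact (lt_min hr (sub_pos.2 hlt)).ne' h0
  intro ε T hε hTT
  have hT := tanh_pos hR
  obtain ⟨δ, hδd⟩ : ∃ δ, δ = ε / (6 * (β + 1)) := ⟨_, rfl⟩
  obtain ⟨η, hηd⟩ : ∃ η, η = ε * Real.tanh R / (2 * n * T) := ⟨_, rfl⟩
  have hn0 : (0 : ℝ) < n := by exact_mod_cast (by omega : 0 < n)
  have hδ : 0 < δ := hδd ▸ by positivity
  have hη : 0 < η := hηd ▸ by positivity
  have hloss : η * (2 * n * T / Real.tanh R) = ε := by rw [hηd]; field_simp
  have hδe : 6 * δ * (β + 1) = ε := by rw [hδd]; field_simp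
  have hδβ : 6 * δ * β ≤ ε := by linarith
  have hδ1 : 6 * δ ≤ ε := by linarith [mul_nonneg hδ.le hβ]
  have low : ∀ r c d, r ∈ Ioc 0 T → c ∈ Icc (-1 : ℝ) 1 → d ∈ Icc (-1 : ℝ) 1 →
      damp δ r * symU n R u ur uc r c d ≤ sym n R (wOf u δ η) r c d + ε := fun r c d hr hc hd => by
    have := sym_lower hn hR h hδ.ne' hη.le hr (hf.nonneg r hr.1) hc hd
    rw [hloss] at this
    linarith
  obtain ⟨K, hK⟩ : ∃ K, K = Rigid.cutK n R ε (wOf u δ η) (kapF n R u ur uc a β L) := ⟨_, rfl⟩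
  have hlo : ∀ r c d, r ∈ Ioc 0 T → c ∈ Icc (-1 : ℝ) 1 → d ∈ Icc (-1 : ℝ) 1 →
      damp δ r * lowF n a β L r c d ≤ K (r, c, d) + ε := fun r c d hr hc hd => by
    have h1 := low r c d hr hc hd
    obtain ⟨κ, hκ⟩ : ∃ κ, κ = kapF n R u ur uc a β L (r, c, d) := ⟨_, rfl⟩
    have hκ0 : 0 ≤ κ := hκ ▸ kapF_nonneg _
    have h2 : κ ≤ r := hκ ▸ (min_le_left _ _).trans_eq (posP_of_nonneg hr.1.le)
    have h3 : κ ≤ symU n R u ur uc r c d - lowF n a β L r c d :=
      hκ ▸ (min_le_right _ _).trans_eq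
        (posP_of_nonneg (sub_nonneg.2 (lowF_le hf ha0 hr.1 hc hd)))
    have hm := damp_mem hδ.ne' r
    have h4 := (mul_le_mul_of_nonneg_left h2 (sub_nonneg.2 hm.2)).trans (damp_loss hδ hr.1.le)
    have h5 : max (κ - ε) 0 ≤ damp δ r * κ :=
      max_le (by linarith) (mul_nonneg hm.1 hκ0)
    have h6 := mul_le_mul_of_nonneg_left h3 hm.1
    rw [hK, Rigid.cutK, ← hκ]
    linarith
  refine ⟨wOf u δ η, contDiff_wOf h hδ.ne' η,
    fun p q hp hq => wOf_pos hδ.ne' hη hf.nonneg hp hq, ?_, ?_, ?_⟩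
  · intro r c d hr hc hd
    rcases hr.1.eq_or_lt with h0 | h0
    · subst h0
      have : 0 ≤ gainW (wOf u δ η) 0 c d := by
        rw [gainW]
        exact div_nonneg (by positivity) (Bend.sfac_pos 1 (by norm_num)).le
      rw [sym_at_zero hn]
      have : (1 : ℝ) ≤ n := by exact_mod_cast (by omega : 1 ≤ n)
      nlinarith
    · have h1 := low r c d ⟨h0, hr.2⟩ hc hd
      have h2 := gain_lower (η := η) hδ.ne' hη.le h0 (hf.nonneg r h0 c hc) (hf.nonneg r h0 d hd)
      have h3 := mul_nonneg (damp_mem hδ.ne' r).1 (hf.gain r h0 c hc d hd)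
      rw [mul_add] at h3
      linarith
  · intro r c d hr hc hd hcd
    rw [← hK]
    rcases hr.1.eq_or_lt with h0 | h0
    · subst h0
      have hk : kapF n R u ur uc a β L (0, c, d) = 0 :=
        le_antisymm ((min_le_left _ _).trans_eq (posP_of_nonpos le_rfl)) (kapF_nonneg _)
      rw [hK, Rigid.cutK, hk]
      simp only [sym_at_zero hn]
      rw [max_eq_right (by linarith)]
      have : (1 : ℝ) ≤ n := by exact_mod_cast (by omega : 1 ≤ n)
      nlinarith
    · have := hlo r c d ⟨h0, hr.2⟩ hc hd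
      rw [lowF_zero ha0 hcd, mul_zero] at this
      linarith
  rw [← hK]
  have hsy : ∀ r c d, K (r, c, d) = K (r, d, c) := fun r c d => by
    simp only [hK, Rigid.cutK, kapF_comm r c d, sym]
    ring
  have hin : ∀ {x : ℝ}, x ∈ Ioc (0 : ℝ) 1 → x ∈ Icc (-1 : ℝ) 1 ∧ -x ∈ Icc (-1 : ℝ) 1 := fun hx =>
    ⟨⟨by linarith [hx.1], hx.2⟩, by linarith [hx.2], by linarith [hx.1]⟩
  have hph : ∀ r c d X, r ∈ Ioc 0 T → c ∈ Icc (-1 : ℝ) 1 → d ∈ Icc (-1 : ℝ) 1 → c * d ≠ 0 →
      X * |c * d| ≤ Real.sinh r ^ (n - 1) * lowF n a β L r c d →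
      damp δ r * X ≤ Strict.phiK n ε K r c d := fun r c d X hr hc hd hcd hX => by
    have h1 := mul_le_mul_of_nonneg_left (hlo r c d hr hc hd)
      (pow_nonneg (Real.sinh_pos_iff.2 hr.1).le (n - 1))
    have h2 := mul_le_mul_of_nonneg_left hX (damp_mem hδ.ne' r).1
    rw [Strict.phiK, le_div_iff₀ (abs_pos.2 hcd)]
    linarith
  refine Strict.lineK_of_pointwise hsy hβ hε.le (fun c hc => ha c (Ioc_subset_Icc_self hc)) ?_ ?_ ?_
  · intro r c d hr hc hd
    have hcd := mul_pos hc.1 hd.1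
    have hS : 0 < Real.sinh r ^ (n - 1) := pow_pos (Real.sinh_pos_iff.2 hr.1) _
    have h1 := hph r c d (a c / c + a d / d + 2 * β * r) hr (hin hc).1 (hin hd).1 hcd.ne' (by
      rw [lowF_inward (Ioc_subset_Icc_self hc) (Ioc_subset_Icc_self hd), abs_of_pos hcd]
      refine le_trans (le_of_eq ?_) (mul_le_mul_of_nonneg_left (le_max_left _ _) hS.le)
      have := hc.1.ne'
      have := hd.1.ne'
      field_simp
      ring)
    have hA : a c / c + a d / d ≤ 0 :=
      add_nonpos (div_nonpos_of_nonpos_of_nonneg (ha c (Ioc_subset_Icc_self hc)) hc.1.le)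
        (div_nonpos_of_nonpos_of_nonneg (ha d (Ioc_subset_Icc_self hd)) hd.1.le)
    have := mul_le_mul_of_nonneg_left (damp_loss hδ hr.1.le) hβ
    have := mul_nonpos_of_nonpos_of_nonneg hA (sub_nonneg.2 (damp_mem hδ.ne' r).2)
    linarith
  · intro r p c d e hr hrp hpT hc hd he
    have hp0 := hr.trans_le hrp
    have hcd := mul_pos hc.1 hd.1
    have hce := mul_pos hc.1 he.1
    have h1 := hph r c d (-L r) ⟨hr, hrp.trans hpT⟩ (hin hc).1 (hin hd).1 hcd.ne' (by
      have hS : 0 < Real.sinh r ^ (n - 1) := pow_pos (Real.sinh_pos_iff.2 hr) _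
      rw [lowF_inward (Ioc_subset_Icc_self hc) (Ioc_subset_Icc_self hd), abs_of_pos hcd]
      refine le_trans (le_of_eq ?_) (mul_le_mul_of_nonneg_left (le_max_right _ _) hS.le)
      field_simp)
    have h2 := hph p c (-e) (L p) ⟨hp0, hpT⟩ (hin hc).1 (hin he).2
      (mul_ne_zero hc.1.ne' (neg_ne_zero.2 he.1.ne')) (by
      have hS : 0 < Real.sinh p ^ (n - 1) := pow_pos (Real.sinh_pos_iff.2 hp0) _
      rw [lowF_mixed ha0 (Ioc_subset_Icc_self hc) (Ioc_subset_Icc_self he), mul_neg, abs_neg,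
        abs_of_pos hce]
      refine le_of_eq ?_
      field_simp)
    have := mul_le_mul (damp_mono hδ.ne' hr.le hrp) (hf.level_mono c hc hr hp0 hrp)
      (hf.level_nonneg r hr c hc) (damp_mem hδ.ne' p).1
    linarith
  · intro r c d hr hc hd
    have hcd := mul_pos hc.1 hd.1
    have hS : 0 < Real.sinh r ^ (n - 1) := pow_pos (Real.sinh_pos_iff.2 hr.1) _
    constructor
    · have := hph r c (-d) 0 hr (hin hc).1 (hin hd).2
        (mul_ne_zero hc.1.ne' (neg_ne_zero.2 hd.1.ne')) (by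
          rw [lowF_mixed ha0 (Ioc_subset_Icc_self hc) (Ioc_subset_Icc_self hd), zero_mul]
          exact mul_nonneg hS.le (div_nonneg (mul_nonneg hcd.le (hf.level_nonneg r hr.1 c hc)) hS.le))
      rwa [mul_zero] at this
    · have := hph r (-c) (-d) 0 hr (hin hc).2 (hin hd).2
        (by rw [neg_mul_neg]; exact hcd.ne') (by
          rw [lowF_outward ha0 (neg_nonpos.2 hc.1.le) (neg_nonpos.2 hd.1.le), zero_mul, mul_zero])
      rwa [mul_zero] at this

end Vale.Agent.P219.CH.Relax.Profile2D
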